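import Vale.Agent.Lib.P201.Extension
import Vale.Agent.Lib.P194.Extreme

/-!
# P201: two results on Kaplansky's zero-divisor conjecture
(A) the conjecture passes to extensions by unique-product groups;
(B) the supports of a pair of zero divisors have no extreme points (every group, every field).
-/

namespace Vale.Agent.Results.P201.AAllResults

open Vale.Agent.Lib.P194

theorem result (K : Type) [Field K] (G : Type) [Group G] :
    (∀ (N : Subgroup G) [N.Normal], NoZeroDivisors (MonoidAlgebra K N) → UniqueProds (G ⧸ N) →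
      ∀ a b : MonoidAlgebra K G, a * b = 0 → a = 0 ∨ b = 0) ∧
    (∀ a b : MonoidAlgebra K G, a ≠ 0 → b ≠ 0 → a * b = 0 →
      (∀ g, ¬ LeftExtreme a.coeff.support g) ∧
      (∀ g, ¬ RightExtreme b.coeff.support g) ∧
      (∀ φ : G → ℝ, (∀ x y, φ (x * y) = φ x + φ y) →
        (∀ g ∈ a.coeff.support, ∃ h ∈ a.coeff.support, h ≠ g ∧ φ h ≤ φ g) ∧
        (∀ g ∈ b.coeff.support, ∃ h ∈ b.coeff.support, h ≠ g ∧ φ h ≤ φ g))) := by
  constructor
  · intro N _ hN hQ a b hab
    have h : NoZeroDivisors (MonoidAlgebra K G) :=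
      Vale.Agent.Lib.P201.noZeroDivisors_of_extension N
    exact h.eq_zero_or_eq_zero_of_mul_eq_zero hab
  · intro a b ha hb hab
    have h1 : ∀ g, ¬ LeftExtreme a.coeff.support g := fun g hg => hb (left_regular a b g hg hab)
    have h2 : ∀ g, ¬ RightExtreme b.coeff.support g := fun g hg => ha (right_regular b a g hg hab)
    refine ⟨h1, h2, fun φ hφ => ⟨fun g hg => ?_, fun g hg => ?_⟩⟩
    · by_contra hcon
      push Not at hcon
      exact h1 g (extreme_of_character _ g hg φ hφ hcon).1
    · by_contra hcon
      push Not at hcon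
      exact h2 g (extreme_of_character _ g hg φ hφ hcon).2

end Vale.Agent.Results.P201.AAllResults
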