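import Vale.Agent.Lib.P194.Extreme

/-!
# P201: the supports of a pair of zero divisors have no extreme points (every group, every field)
-/

namespace Vale.Agent.Results.P201.ExtremeSupport

open Vale.Agent.Lib.P194

theorem result (K : Type) [Field K] (G : Type) [Group G] (a b : MonoidAlgebra K G)
    (ha : a ≠ 0) (hb : b ≠ 0) (hab : a * b = 0) :
    (∀ g, ¬ LeftExtreme a.coeff.support g) ∧
    (∀ g, ¬ RightExtreme b.coeff.support g) ∧
    (∀ φ : G → ℝ, (∀ x y, φ (x * y) = φ x + φ y) →
      (∀ g ∈ a.coeff.support, ∃ h ∈ a.coeff.support, h ≠ g ∧ φ h ≤ φ g) ∧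
      (∀ g ∈ b.coeff.support, ∃ h ∈ b.coeff.support, h ≠ g ∧ φ h ≤ φ g)) := by
  have h1 : ∀ g, ¬ LeftExtreme a.coeff.support g := fun g hg => hb (left_regular a b g hg hab)
  have h2 : ∀ g, ¬ RightExtreme b.coeff.support g := fun g hg => ha (right_regular b a g hg hab)
  refine ⟨h1, h2, fun φ hφ => ⟨fun g hg => ?_, fun g hg => ?_⟩⟩
  · by_contra hcon
    push Not at hcon
    exact h1 g (extreme_of_character _ g hg φ hφ hcon).1
  · by_contra hcon
    push Not at hcon
    exact h2 g (extreme_of_character _ g hg φ hφ hcon).2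

end Vale.Agent.Results.P201.ExtremeSupport
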